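import Vale.Agent.P155.Y877.R1

/-! P155 (SW), block (4): nonnegative combinations of radial bumps are dense in the tests. -/

namespace Vale.Agent.P155.SW34

open MeasureTheory Set Filter Topology Metric
open scoped ContDiff

open U Y877

theorem ph_symm (z w : ℂ) (ρ : ℝ) : ph z ρ w = ph w ρ z := by
  unfold ph
  rw [norm_sub_rev]

theorem ph_eq0 (z w : ℂ) (ρ : ℝ) : ph z ρ w = ph 0 ρ (w - z) := by
  unfold ph
  rw [sub_zero]

theorem dense_ph {V : Set ℂ} (hV : IsOpen V) {φ : ℂ → ℝ} (hφ : IsTest V φ)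
    (h0 : ∀ z, 0 ≤ φ z) {ε : ℝ} (hε : 0 < ε) :
    ∃ (n : ℕ) (c : Fin n → ℝ) (z : Fin n → ℂ) (ρ : Fin n → ℝ),
      (∀ i, 0 ≤ c i ∧ 0 < ρ i ∧ closedBall (z i) (ρ i) ⊆ V) ∧
      ∀ w, |φ w - ∑ i, c i * ph (z i) (ρ i) w| ≤ ε := by
  obtain ⟨hs, hc, hsub⟩ := hφ
  set K : Set ℂ := tsupport φ with hK
  have hKc : IsCompact K := hc
  have hcont : Continuous φ := hs.continuous
  -- the radius
  obtain ⟨ρ₁, hρ₁, hthick⟩ := hKc.exists_cthickening_subset_open hV hsub
  have huc := hc.uniformContinuous_of_continuous hcont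
  obtain ⟨ρ₂, hρ₂, huc2⟩ := Metric.uniformContinuous_iff.1 huc (ε / 2) (by positivity)
  set ρ : ℝ := min ρ₁ (ρ₂ / 2) with hρd
  have hρ : 0 < ρ := lt_min hρ₁ (by positivity)
  have hball : ∀ x ∈ K, closedBall x ρ ⊆ V := fun x hx =>
    (closedBall_subset_cthickening hx ρ).trans ((cthickening_mono (min_le_left _ _) K).trans hthick)
  have hnear : ∀ x y : ℂ, ‖x - y‖ ≤ ρ → |φ x - φ y| ≤ ε / 2 := by
    intro x y hxy
    have h1 : dist x y < ρ₂ := by
      rw [dist_eq_norm]
      have : ρ ≤ ρ₂ / 2 := min_le_right _ _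
      linarith
    have := huc2 h1
    rw [Real.dist_eq] at this
    exact this.le
  -- the bump
  have hpc : Continuous (ph 0 ρ) := (ph_contDiff 0 ρ).continuous
  have hpcs : HasCompactSupport (ph 0 ρ) := (isTest_ph hρ (subset_univ _)).2.1
  set I : ℝ := ∫ z, φ z with hI
  have hI0 : 0 ≤ I := integral_nonneg h0
  have hφi : Integrable φ := hcont.integrable_of_hasCompactSupport hc
  obtain ⟨η, hη, huc3⟩ := Metric.uniformContinuous_iff.1
    (hpcs.uniformContinuous_of_continuous hpc) (ε / (2 * (I + 1))) (by positivity)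
  have hnear2 : ∀ x y w : ℂ, dist x y < η → |ph x ρ w - ph y ρ w| ≤ ε / (2 * (I + 1)) := by
    intro x y w hxy
    rw [ph_eq0, ph_eq0 y]
    have h1 : dist (w - x) (w - y) < η := by
      rw [dist_eq_norm] at hxy ⊢
      have : w - x - (w - y) = -(x - y) := by ring
      rw [this, norm_neg]
      exact hxy
    have := huc3 h1
    rw [Real.dist_eq] at this
    exact this.le
  -- the cells
  obtain ⟨t, htK, htc⟩ := hKc.elim_nhds_subcover (fun x => ball x η)
    (fun x _ => ball_mem_nhds x hη)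
  set n := t.card with hn
  set z : Fin n → ℂ := fun i => (t.equivFin.symm i : ℂ) with hz
  have hzK : ∀ i, z i ∈ K := fun i => htK _ (t.equivFin.symm i).2
  have hcov : K ⊆ ⋃ i, ball (z i) η := by
    intro x hx
    obtain ⟨y, hy, hxy⟩ := mem_iUnion₂.1 (htc hx)
    refine mem_iUnion.2 ⟨t.equivFin ⟨y, hy⟩, ?_⟩
    simp only [hz, Equiv.symm_apply_apply]
    exact hxy
  set A : Fin n → Set ℂ := fun i => (K ∩ ball (z i) η) \ ⋃ j : Fin n, ⋃ _ : j < i, ball (z j) η
    with hA
  have hAm : ∀ i, MeasurableSet (A i) := fun i =>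
    (hKc.measurableSet.inter measurableSet_ball).diff
      (MeasurableSet.iUnion fun j => MeasurableSet.iUnion fun _ => measurableSet_ball)
  have hAd : Pairwise (Function.onFun Disjoint A) := by
    intro i j hij
    rw [Function.onFun, Set.disjoint_left]
    intro x hx hx'
    rcases lt_or_gt_of_ne hij with h | h
    · exact hx'.2 (mem_iUnion₂.2 ⟨i, h, hx.1.2⟩)
    · exact hx.2 (mem_iUnion₂.2 ⟨j, h, hx'.1.2⟩)
  have hAK : (⋃ i, A i) = K := by
    apply subset_antisymm
    · exact iUnion_subset fun i x hx => hx.1.1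
    · intro x hx
      have hex : ∃ i, x ∈ ball (z i) η := mem_iUnion.1 (hcov hx)
      classical
      obtain ⟨i, hi⟩ : ∃ i, x ∈ ball (z i) η ∧ ∀ j < i, x ∉ ball (z j) η := by
        obtain ⟨i, hi, hmin⟩ := WellFounded.has_min (wellFounded_lt (α := Fin n))
          {i | x ∈ ball (z i) η} hex
        exact ⟨i, hi, fun j hj hxj => hmin j hxj hj⟩
      refine mem_iUnion.2 ⟨i, ⟨hx, hi.1⟩, fun h => ?_⟩
      obtain ⟨j, hj, hxj⟩ := mem_iUnion₂.1 h
      exact hi.2 j hj hxj
  have hsplit : ∀ F : ℂ → ℝ, Integrable F → ∫ x in K, F x = ∑ i, ∫ x in A i, F x := by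
    intro F hF
    rw [← hAK]
    exact integral_iUnion_fintype hAm hAd fun i => hF.integrableOn
  refine ⟨n, fun i => ∫ x in A i, φ x, z, fun _ => ρ, fun i => ⟨?_, hρ, hball _ (hzK i)⟩,
    fun w => ?_⟩
  · exact integral_nonneg h0
  have hpw : Continuous (ph w ρ) := (ph_contDiff w ρ).continuous
  have hpi : Integrable (ph w ρ) :=
    hpw.integrable_of_hasCompactSupport (isTest_ph hρ (subset_univ _)).2.1
  have hFi : Integrable (fun x => φ x * ph w ρ x) :=
    (hcont.mul hpw).integrable_of_hasCompactSupport hc.mul_right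
  -- first step
  have s1 : |φ w - ∫ x in K, φ x * ph w ρ x| ≤ ε / 2 := by
    have e1 : ∫ x in K, φ x * ph w ρ x = ∫ x, φ x * ph w ρ x := by
      apply setIntegral_eq_integral_of_forall_compl_eq_zero
      intro x hx
      rw [image_eq_zero_of_notMem_tsupport hx, zero_mul]
    have e2 : φ w = ∫ x, φ w * ph w ρ x := by
      rw [integral_const_mul, mass_ph hρ, mul_one]
    rw [e1]
    conv_lhs => rw [e2]
    rw [← integral_sub (hpi.const_mul _) hFi]
    have e3 : ∀ x, ‖φ w * ph w ρ x - φ x * ph w ρ x‖ ≤ (ε / 2) * ph w ρ x := by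
      intro x
      rw [← sub_mul, norm_mul, Real.norm_eq_abs, Real.norm_eq_abs, abs_of_nonneg (ph_nonneg hρ w x)]
      by_cases hx : ρ < ‖x - w‖
      · rw [ph_zero hρ hx, mul_zero, mul_zero]
      · refine mul_le_mul_of_nonneg_right (hnear w x ?_) (ph_nonneg hρ w x)
        rw [norm_sub_rev]
        exact not_lt.1 hx
    rw [← Real.norm_eq_abs]
    refine (norm_integral_le_of_norm_le (hpi.const_mul (ε / 2)) (Eventually.of_forall e3)).trans ?_
    rw [integral_const_mul, mass_ph hρ, mul_one]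
  -- second step
  have s2 : |(∫ x in K, φ x * ph w ρ x) - ∑ i, (∫ x in A i, φ x) * ph (z i) ρ w| ≤ ε / 2 := by
    rw [hsplit _ hFi, ← Finset.sum_sub_distrib]
    refine (Finset.abs_sum_le_sum_abs _ _).trans ?_
    have e1 : ∀ i, |(∫ x in A i, φ x * ph w ρ x) - (∫ x in A i, φ x) * ph (z i) ρ w| ≤
        ε / (2 * (I + 1)) * ∫ x in A i, φ x := by
      intro i
      rw [← integral_mul_const, ← integral_sub hFi.integrableOn (hφi.integrableOn.mul_const _),
        ← Real.norm_eq_abs, ← integral_const_mul]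
      refine norm_integral_le_of_norm_le (hφi.integrableOn.const_mul _) ?_
      filter_upwards [ae_restrict_mem (hAm i)] with x hx
      rw [← mul_sub, norm_mul, Real.norm_eq_abs, Real.norm_eq_abs, abs_of_nonneg (h0 x), mul_comm]
      refine mul_le_mul_of_nonneg_right ?_ (h0 x)
      rw [ph_symm w x]
      exact hnear2 x (z i) w hx.1.2
    refine (Finset.sum_le_sum fun i _ => e1 i).trans ?_
    rw [← Finset.mul_sum, ← hsplit φ hφi]
    have e2 : ∫ x in K, φ x = I := by
      apply setIntegral_eq_integral_of_forall_compl_eq_zero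
      intro x hx
      exact image_eq_zero_of_notMem_tsupport hx
    rw [e2, div_mul_eq_mul_div, div_le_iff₀ (by positivity)]
    nlinarith
  calc |φ w - ∑ i, (∫ x in A i, φ x) * ph (z i) ρ w|
      = |(φ w - ∫ x in K, φ x * ph w ρ x) +
        ((∫ x in K, φ x * ph w ρ x) - ∑ i, (∫ x in A i, φ x) * ph (z i) ρ w)| := by
        congr 1
        ring
    _ ≤ _ := abs_add_le _ _
    _ ≤ ε := by linarith

end Vale.Agent.P155.SW34
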