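import Vale.Agent.P155.NO801.YS

/-!
# P155: nested CLE₄: disjointness of the loops and the restriction property
-/

namespace Vale.Agent.P155.NCLE

open MeasureTheory Filter Topology TopologicalSpace ProbabilityTheory Vale.Agent.P155
  Vale.Agent.P155.Q1

/-- `K` together with the closures of the holes of `s` (in `Ω`) whose closures meet `K`. -/
def Hull (Ω K s : Set ℂ) : Set ℂ :=
  K ∪ ⋃₀ {C | ∃ U, IsHole Ω s U ∧ (closure U ∩ K).Nonempty ∧ C = closure U}

/-- **Disjointness**: the closures of distinct holes of the first carpet are disjoint. -/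
def DisjointLoops {Θ : Type} [MeasurableSpace Θ] (P : Measure Θ) (Ω : Set ℂ)
    (G : ℕ → Θ → NonemptyCompacts ℂ) : Prop :=
  ∀ᵐ x ∂P, ∀ U U', IsHole Ω (G 1 x) U → IsHole Ω (G 1 x) U' → U ≠ U' →
    Disjoint (closure U) (closure U')

noncomputable local instance instBorelNC : MeasurableSpace (NonemptyCompacts ℂ) := borel _

/-- sequences of carpets -/
abbrev Seq := ℕ → NonemptyCompacts ℂ

/-- the product of the Borel structures -/
noncomputable local instance instSeq : MeasurableSpace Seq := MeasurableSpace.pi

/-- The law `Q` of the carpets given that the hull of `K` is `b`: every loop lies in `b` or in a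
component `V` of its complement; the collections of the loops in distinct components are
independent; that of the loops in the component `V` is nested CLE₄ in `V`. -/
def Given (Q : Measure Seq) (Ω K b : Set ℂ) (C : Seq → LoopColl) : Prop :=
  (∀ᵐ s ∂Q, HoleLoops Ω s (C s) ∧ Hull Ω K (s 1) = b ∧
      ∀ l, (C s).mult l ≠ 0 → LIn l b ∨ ∃ V, IsHole Ω b V ∧ LIn l V) ∧
    ∀ (m : ℕ) (V : Fin m → Set ℂ), Function.Injective V → (∀ i, IsHole Ω b (V i)) →
      iIndepFun (fun i s => inside (C s) (V i)) Q ∧
      ∀ i, IsOpen (V i) ∧ SimplyConnectedSpace (V i) ∧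
        AEMeasurable (fun s => inside (C s) (V i)) Q ∧
        IsNestedCLE4 (V i) (Q.map fun s => inside (C s) (V i))

/-- **Restriction property** (Sheffield, Werner): let `K` be closed and connected and contain the
complement of `Ω`, and let its hull be the union of `K` and of the closed holes of the first carpet
which meet `K`.  The law of the carpets is a mixture `∫ κ y dν(y)` such that `κ y` is, for almost
every `y`, as in `Given` for the hull `b y`. -/
def Restriction {Θ : Type} [MeasurableSpace Θ] (P : Measure Θ) (Ω : Set ℂ)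
    (G : ℕ → Θ → NonemptyCompacts ℂ) (Γ : Θ → LoopColl) : Prop :=
  ∀ K : Set ℂ, IsClosed K → IsConnected K → Ωᶜ ⊆ K →
  ∃ (X : Type) (_ : MeasurableSpace X) (ν : Measure X) (κ : X → Measure Seq) (b : X → Set ℂ)
    (C : Seq → LoopColl), IsProbabilityMeasure ν ∧ Measurable κ ∧
    (∀ y, IsProbabilityMeasure (κ y)) ∧ P.map (fun x k => G k x) = ν.bind κ ∧
    AEMeasurable C (ν.bind κ) ∧ (∀ᵐ x ∂P, C (fun k => G k x) = Γ x) ∧
    ∀ᵐ y ∂ν, Given (κ y) Ω K (b y) C

end Vale.Agent.P155.NCLE
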