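import Vale.Agent.P155.SW801.Seven
import Vale.Agent.P155.SW34.Stmt
import Vale.Agent.P155.QQ.IterFin

/-!
# P155 (SW): the final theorem, from RESTR and DJ, with the short form of the restriction property
-/

namespace Vale.Agent.P155.SW34

open MeasureTheory Filter Topology TopologicalSpace Vale.Agent.P155 Vale.Agent.P155.Q1

/-- the short form of the restriction property -/
theorem toShort {Θ : Type} [MeasurableSpace Θ] {P : Measure Θ} {Ω : Set ℂ}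
    {G : ℕ → Θ → NonemptyCompacts ℂ} {Γ : Θ → LoopColl} (h : SWR.Restr P Ω G Γ) :
    NCLE.Restriction P Ω G Γ := by
  intro K h1 h2 h3
  obtain ⟨X, mX, ν, κ, b, C, hν, hκ, hm, hC, hΓ, hy⟩ := h K h1 h2 h3
  refine ⟨X, mX, ν, κ, b, C, hν, κ.measurable, fun y => hκ.isProbabilityMeasure y, hm, ?_, hΓ, ?_⟩
  · have := hC
    rw [hm] at this
    exact this
  · exact hy

/-- **Final theorem** with the conformal radii, the iteration, disjointness and restriction. -/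
theorem ax_of (hR : SWR.RESTR) (hD : SWR.DJ) :
    (∀ Ω : Set ℂ, IsOpen Ω → Bornology.IsBounded Ω → Ω.Nonempty → SimplyConnectedSpace Ω →
      (∃ S : Approx Ω, S.Outer) ∧ ∃ μ : Measure LoopColl, IsProbabilityMeasure μ ∧
      IsNestedCLE4 Ω μ ∧ (∀ ν, IsNestedCLE4 Ω ν → ν = μ) ∧
      (∀ S : Approx Ω, ((∀ F : LoopColl → ℝ, Continuous F → (∃ C, ∀ Γ, |F Γ| ≤ C) →
          Tendsto (fun n => Ex (S.T n).V (fun ω => F (LL (S.δ n) (S.a n) ω))) atTop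
            (𝓝 (∫ Γ, F Γ ∂μ))) ↔ S.Outer) ∧
        (IsConnected (closure Ω)ᶜ → S.Outer)) ∧
      (∃ (Θ : Type) (_ : MeasurableSpace Θ) (P : Measure Θ) (G : ℕ → Θ → NonemptyCompacts ℂ)
        (ξ : ℕ → ℕ → Θ → ℝ) (Γ : Θ → LoopColl), NCLE.Nested P Ω G ξ Γ) ∧
      ∀ (Θ : Type) (_ : MeasurableSpace Θ) (P : Measure Θ) (G : ℕ → Θ → NonemptyCompacts ℂ)
        (ξ : ℕ → ℕ → Θ → ℝ) (Γ : Θ → LoopColl), NCLE.Nested P Ω G ξ Γ →
        P.map Γ = μ ∧ NCLE.Radii P Ω G ∧ NCLE.Iter P Ω G Γ ∧ NCLE.DisjointLoops P Ω G ∧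
          NCLE.Restriction P Ω G Γ) ∧
    (∀ (Ω Ω' : Set ℂ) (f g : ℂ → ℂ), Bornology.IsBounded Ω → Bornology.IsBounded Ω' →
      Ω.Nonempty → SimplyConnectedSpace Ω' → CI.Conf Ω Ω' f g →
      ∀ μ μ' : Measure LoopColl, IsNestedCLE4 Ω μ → IsNestedCLE4 Ω' μ' →
      ∃ (Θ : Type) (_ : MeasurableSpace Θ) (P : Measure Θ) (Γ Γ' : Θ → LoopColl),
        IsProbabilityMeasure P ∧ AEMeasurable Γ P ∧ AEMeasurable Γ' P ∧ P.map Γ = μ ∧
        P.map Γ' = μ' ∧ ∀ᵐ x ∂P, CI.MapsColl Ω Ω' f (Γ x) (Γ' x)) := by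
  obtain ⟨h1, h2⟩ := QQ.iter_of NT613.vbp2 NT613.rgoal QQ.iter NT34.Y.hsc
  refine ⟨fun Ω ho hb hne hsc => ?_, h2⟩
  obtain ⟨hA, μ, hμ, hμ4, huniq, hconv, hex, hreal⟩ := h1 Ω ho hb hne hsc
  refine ⟨hA, μ, hμ, hμ4, huniq, hconv, hex, fun Θ mΘ P G ξ Γ h => ?_⟩
  obtain ⟨a, b, c⟩ := hreal Θ mΘ P G ξ Γ h
  exact ⟨a, b, c, SWR.disj_of hD ho hb hne hsc h,
    toShort (SWR.restr_of hR hD NT34.Y.hsc ho hb hne hsc h)⟩

end Vale.Agent.P155.SW34
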