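import Vale.Agent.P155.Y877.R1

/-! P155 (SW), block (4): the potential of a radial bump in a bounded simply connected open set. -/

namespace Vale.Agent.P155.SW34

open MeasureTheory Set Filter Topology Metric InnerProductSpace
open scoped ContDiff

open U CI Y877

theorem pt_ph {V : Set ℂ} (hV : IsOpen V) (hb : Bornology.IsBounded V)
    (hsc : SimplyConnectedSpace V) {z : ℂ} {ρ : ℝ} (hρ : 0 < ρ) (hB : closedBall z ρ ⊆ V) :
    ∃ u : ℂ → ℝ, (∀ w ∈ V, ContDiffAt ℝ ∞ u w) ∧ (∀ w ∈ V, 0 < u w) ∧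
      (∀ δ : ℝ, 0 < δ → ∃ K, IsCompact K ∧ K ⊆ V ∧ ∀ w ∈ V, δ ≤ u w → w ∈ K) ∧
      IsTest V (ph z ρ) ∧ (∀ w, 0 ≤ ph z ρ w) ∧ ∀ w ∈ V, nlap u w = ph z ρ w := by
  have hz : z ∈ V := hB (mem_closedBall_self hρ.le)
  have hne : V ≠ univ := by
    rintro rfl
    exact NormedSpace.unbounded_univ ℝ ℂ hb
  obtain ⟨g, f, h, h0⟩ := exists_conf hV hsc hne hz
  have hpi := Real.pi_pos
  set u : ℂ → ℝ := fun w => -(1 / (2 * Real.pi)) *
    (Real.log ‖dslope g z w‖ + Mf ρ (‖w - z‖ ^ 2)) with hu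
  have hMs : ∀ w : ℂ, ContDiffAt ℝ ∞ (fun w => Mf ρ (‖w - z‖ ^ 2)) w := fun w =>
    ((Mf_contDiff hρ).comp (sq_contDiff z)).contDiffAt
  refine ⟨u, fun w hw => ?_, fun w hw => ?_, fun δ hδ => ?_, isTest_ph hρ hB, ph_nonneg hρ z,
    fun w hw => ?_⟩
  · exact contDiffAt_const.mul ((smooth_ds h hz h0 hw).add (hMs w))
  · have := neg_pot h h0 hρ hB hw
    rw [hu]
    simp only
    have h2 : 0 < 1 / (2 * Real.pi) := by positivity
    nlinarith
  · refine ⟨f '' closedBall 0 (Real.exp (-(2 * Real.pi * δ))) ∪ closedBall z ρ, ?_, ?_, ?_⟩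
    · refine IsCompact.union ?_ (isCompact_closedBall z ρ)
      refine (isCompact_closedBall _ _).image_of_continuousOn (h.dg.continuousOn.mono ?_)
      exact closedBall_subset_ball (Real.exp_lt_one_iff.2 (by simp; positivity))
    · refine union_subset ?_ hB
      rintro _ ⟨x, hx, rfl⟩
      exact h.mg (closedBall_subset_ball (Real.exp_lt_one_iff.2 (by simp; positivity)) hx)
    · intro w hw hδw
      rcases le_or_gt ‖w - z‖ ρ with h2 | h2
      · right
        rw [mem_closedBall, Complex.dist_eq]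
        exact h2
      · left
        have hne : w ≠ z := by
          rintro rfl
          rw [sub_self, norm_zero] at h2
          linarith
        refine ⟨g w, ?_, h.gf w hw⟩
        rw [mem_closedBall_zero_iff]
        rw [hu] at hδw
        simp only at hδw
        rw [log_ds h hz h0 hw hne, Mf_eq hρ (by gcongr), Real.log_pow] at hδw
        push_cast at hδw
        have h3 : Real.log ‖g w‖ ≤ -(2 * Real.pi * δ) := by
          have h4 : 1 / (2 * Real.pi) * (-Real.log ‖g w‖) = -(1 / (2 * Real.pi)) *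
              (Real.log ‖g w‖ - Real.log ‖w - z‖ + 2 * Real.log ‖w - z‖ / 2) := by ring
          rw [← h4, one_div, inv_mul_eq_div, le_div_iff₀ (by positivity)] at hδw
          linarith
        rw [← Real.exp_log (norm_pos_iff.2 (g_ne h hz h0 hw hne))]
        exact Real.exp_le_exp.2 h3
  · have h2 : nlap u w = -(1 / (2 * Real.pi)) * (nlap (fun w => Real.log ‖dslope g z w‖) w +
        nlap (fun w => Mf ρ (‖w - z‖ ^ 2)) w) :=
      nlap_lin ((harm_ds h hz h0 hw).1)
        ((hMs w).of_le (m := ((2 : ℕ∞) : WithTop ℕ∞)) (WithTop.coe_le_coe.2 le_top)) _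
    rw [h2, nlap_harmonic (harm_ds h hz h0 hw), nlap_M hρ]
    field_simp
    ring

end Vale.Agent.P155.SW34
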